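import Vale.Agent.P136.H413.Final

open Vale.Agent.P136.Elasticity Vale.Agent.P136.Rough Vale.Agent.P136.Energy

namespace Vale.Agent.Results.P136.LeastEnergies

/-- The inverse boundary value problem for isotropic elasticity in three dimensions, from the
displacement-to-traction map and from least elastic energies.
(1) Q1 as posed. (2) On every bounded Lipschitz domain, and on every smooth domain: if the least
energies of the second pair are `c` times those of the first, for each boundary displacement, then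
the second pair is `c` times the first. (3) On every bounded open set the least energy exists and
is the value `⟨Λ f, f⟩` of the quadratic form of the displacement-to-traction map. -/
theorem result :
    (∀ (Ω : Set E3) (lam₁ mu₁ lam₂ mu₂ : E3 → ℝ), SmoothDomain Ω →
      Admissible Ω lam₁ mu₁ → Admissible Ω lam₂ mu₂ → SameDN Ω lam₁ mu₁ lam₂ mu₂ →
      ∀ x ∈ Ω, lam₁ x = lam₂ x ∧ mu₁ x = mu₂ x) ∧
    (∀ (Ω : Set E3) (lam₁ mu₁ lam₂ mu₂ : E3 → ℝ) (c : ℝ), SmoothDomain Ω ∨ LipschitzDomain Ω →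
      Admissible Ω lam₁ mu₁ → Admissible Ω lam₂ mu₂ → 0 < c →
      ProportionalEnergies Ω c lam₁ mu₁ lam₂ mu₂ →
      ∀ x ∈ Ω, lam₂ x = c * lam₁ x ∧ mu₂ x = c * mu₁ x) ∧
    (∀ (Ω : Set E3) (lam mu : E3 → ℝ), IsOpen Ω → Bornology.IsBounded Ω → Admissible Ω lam mu →
      ∀ f : H1 Ω, (∃ r, LeastEnergy Ω lam mu f r) ∧
        ∀ r, LeastEnergy Ω lam mu f r ↔ DN Ω lam mu f f r) := by
  refine ⟨?_, ?_, ?_⟩
  · intro Ω lam₁ mu₁ lam₂ mu₂ hΩ h₁ h₂ hDN
    obtain ⟨e₁, c₁⟩ := admissible_public hΩ.isOpen hΩ.isBounded h₁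
    obtain ⟨e₂, c₂⟩ := admissible_public hΩ.isOpen hΩ.isBounded h₂
    exact tangent_public (smooth_tangentDomain hΩ) e₁ e₂ c₁ c₂ hDN
  · intro Ω lam₁ mu₁ lam₂ mu₂ c hΩ h₁ h₂ hc H
    exact unique_proportional (hΩ.elim smooth_tangentDomain LipschitzDomain.tangentDomain) hc
      h₁ h₂ H
  · intro Ω lam mu ho hb h f
    exact ⟨exists_least ho hb h f, least_DN ho hb h f⟩

end Vale.Agent.Results.P136.LeastEnergies
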