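import Vale.Agent.P136.H222.Final

open Vale.Agent.P136.Elasticity Vale.Agent.P136.Rough

namespace Vale.Agent.Results.P136.RoughDomains

/-- The inverse boundary value problem for isotropic elasticity in three dimensions.
(1) Q1 as posed: global uniqueness for all admissible pairs on all bounded connected smooth
domains. (2) Global uniqueness on every bounded open set which has a tangent plane, and lies on
one side of it, at a dense set of boundary points, in the larger class `μ > 0`, `λ + μ > 0` with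
energy coercive on `H¹₀`. (3) On an arbitrary bounded open set, for all smooth moduli with
`μ > 0`, `λ + μ > 0` which agree to first order on the boundary: an inclusion of the sets of
Cauchy data implies equality. (4) Smooth domains and bounded Lipschitz domains are covered by (2);
(5) so are all admissible pairs on bounded open sets, and (6) all constant moduli with `μ > 0`,
`λ + μ > 0`. -/
theorem result :
    (∀ (Ω : Set E3) (lam₁ mu₁ lam₂ mu₂ : E3 → ℝ), SmoothDomain Ω →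
      Admissible Ω lam₁ mu₁ → Admissible Ω lam₂ mu₂ → SameDN Ω lam₁ mu₁ lam₂ mu₂ →
      ∀ x ∈ Ω, lam₁ x = lam₂ x ∧ mu₁ x = mu₂ x) ∧
    (∀ (Ω : Set E3) (lam₁ mu₁ lam₂ mu₂ : E3 → ℝ), TangentDomain Ω →
      Elliptic Ω lam₁ mu₁ → Coercive Ω lam₁ mu₁ → Elliptic Ω lam₂ mu₂ → Coercive Ω lam₂ mu₂ →
      SameDN Ω lam₁ mu₁ lam₂ mu₂ →
      ∀ x ∈ Ω, lam₁ x = lam₂ x ∧ mu₁ x = mu₂ x) ∧
    (∀ (Ω : Set E3) (lam₁ mu₁ lam₂ mu₂ : E3 → ℝ), IsOpen Ω → Bornology.IsBounded Ω →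
      Elliptic Ω lam₁ mu₁ → Elliptic Ω lam₂ mu₂ →
      AgreeToFirstOrder Ω lam₁ mu₁ lam₂ mu₂ → CauchyDataSubset Ω lam₁ mu₁ lam₂ mu₂ →
      ∀ x ∈ Ω, lam₁ x = lam₂ x ∧ mu₁ x = mu₂ x) ∧
    (∀ Ω : Set E3, SmoothDomain Ω ∨ LipschitzDomain Ω → TangentDomain Ω) ∧
    (∀ (Ω : Set E3) (lam mu : E3 → ℝ), IsOpen Ω → Bornology.IsBounded Ω →
      Admissible Ω lam mu → Elliptic Ω lam mu ∧ Coercive Ω lam mu) ∧
    (∀ (Ω : Set E3) (a b : ℝ), 0 < b → 0 < a + b →
      Elliptic Ω (fun _ => a) (fun _ => b) ∧ Coercive Ω (fun _ => a) (fun _ => b)) := by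
  refine ⟨?_, ?_, ?_, ?_, ?_, ?_⟩
  · intro Ω lam₁ mu₁ lam₂ mu₂ hΩ h₁ h₂ hDN
    obtain ⟨e₁, c₁⟩ := admissible_public hΩ.isOpen hΩ.isBounded h₁
    obtain ⟨e₂, c₂⟩ := admissible_public hΩ.isOpen hΩ.isBounded h₂
    exact tangent_public (smooth_tangentDomain hΩ) e₁ e₂ c₁ c₂ hDN
  · intro Ω lam₁ mu₁ lam₂ mu₂ hΩ e₁ c₁ e₂ c₂ hDN
    exact tangent_public hΩ e₁ e₂ c₁ c₂ hDN
  · intro Ω lam₁ mu₁ lam₂ mu₂ ho hb e₁ e₂ hbd hC
    exact cauchy_public ho hb e₁ e₂ hbd hC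
  · intro Ω h
    rcases h with h | h
    · exact smooth_tangentDomain h
    · exact LipschitzDomain.tangentDomain h
  · intro Ω lam mu ho hb h
    exact admissible_public ho hb h
  · intro Ω a b hb hab
    exact ⟨⟨contDiff_const, contDiff_const, fun _ _ => ⟨hb, hab⟩⟩, const_public Ω hb hab⟩

end Vale.Agent.Results.P136.RoughDomains
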