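import Vale.Agent.P136.H969.Final

open Vale.Agent.P136.Elasticity Vale.Agent.P136.H969

namespace Vale.Agent.Results.P136.StableDetermination

/-- The inverse boundary value problem for isotropic elasticity in three dimensions: uniqueness and
stable determination from finitely many boundary measurements.
(1) Q1 as posed: global uniqueness for all admissible pairs on all bounded connected smooth
domains.
(2) Stability from finitely many measurements: let `Ω` be a bounded connected smooth domain and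
consider a class of admissible pairs with `μ ≥ m > 0`, `3 λ + 2 μ ≥ m` on the closure of `Ω` and with
all derivatives of order `j` bounded by `B j` on `ℝ³`, for every `j`. For every order `k` and
`ε > 0` there are `δ > 0` and finitely many displacements `f ∈ S` such that, if the finitely many
numbers `⟨Λ f, g⟩`, `f, g ∈ S`, of two pairs of the class differ by at most `δ`, then all
derivatives of order at most `k` of `λ₁ - λ₂` and of `μ₁ - μ₂` are bounded by `ε` on `Ω`.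
(3) On every bounded open set, for every admissible pair and all `f, g ∈ H¹(Ω; ℝ³)`, there is
exactly one number `⟨Λ f, g⟩`.
(4) On every bounded open set, `⟨Λ f, g⟩` is continuous in the admissible pair for uniform
convergence on `Ω`. -/
theorem result :
    (∀ (Ω : Set E3) (lam₁ mu₁ lam₂ mu₂ : E3 → ℝ), SmoothDomain Ω →
      Admissible Ω lam₁ mu₁ → Admissible Ω lam₂ mu₂ → SameDN Ω lam₁ mu₁ lam₂ mu₂ →
      ∀ x ∈ Ω, lam₁ x = lam₂ x ∧ mu₁ x = mu₂ x) ∧
    (∀ Ω : Set E3, SmoothDomain Ω → ∀ m : ℝ, 0 < m → ∀ (B : ℕ → ℝ) (k : ℕ) (ε : ℝ), 0 < ε →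
      ∃ δ > 0, ∃ S : Finset (H1 Ω), ∀ lam₁ mu₁ lam₂ mu₂ : E3 → ℝ,
        InClass Ω m B lam₁ mu₁ → InClass Ω m B lam₂ mu₂ →
        (∀ f ∈ S, ∀ g ∈ S, ∀ r₁ r₂ : ℝ, DN Ω lam₁ mu₁ f g r₁ → DN Ω lam₂ mu₂ f g r₂ →
          |r₁ - r₂| ≤ δ) →
        ∀ j ≤ k, ∀ x ∈ Ω, ‖iteratedFDeriv ℝ j lam₁ x - iteratedFDeriv ℝ j lam₂ x‖ ≤ ε ∧
          ‖iteratedFDeriv ℝ j mu₁ x - iteratedFDeriv ℝ j mu₂ x‖ ≤ ε) ∧
    (∀ (Ω : Set E3) (lam mu : E3 → ℝ), IsOpen Ω → Bornology.IsBounded Ω →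
      Admissible Ω lam mu → ∀ f g : H1 Ω, ∃! r : ℝ, DN Ω lam mu f g r) ∧
    (∀ (Ω : Set E3) (lam mu : E3 → ℝ), IsOpen Ω → Bornology.IsBounded Ω →
      Admissible Ω lam mu → ∀ (f g : H1 Ω) (ε : ℝ), 0 < ε →
      ∃ η > 0, ∀ lam' mu' : E3 → ℝ, Admissible Ω lam' mu' →
        (∀ x ∈ Ω, |lam x - lam' x| ≤ η ∧ |mu x - mu' x| ≤ η) →
        ∀ r r' : ℝ, DN Ω lam mu f g r → DN Ω lam' mu' f g r' → |r - r'| ≤ ε) := by
  refine ⟨?_, ?_, ?_, ?_⟩
  · intro Ω lam₁ mu₁ lam₂ mu₂ hΩ h₁ h₂ hDN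
    exact uniq_public hΩ _ _ _ _ (sc_public hΩ.isOpen hΩ.isBounded h₁)
      (sc_public hΩ.isOpen hΩ.isBounded h₂) (Vale.Agent.P136.Bridge.sameDN hDN)
  · intro Ω hΩ m hm B k ε hε
    exact stable_public hΩ hm B k hε
  · intro Ω lam mu ho hb h f g
    exact existsUnique_public ho hb h f g
  · intro Ω lam mu ho hb h f g ε hε
    exact cont_public ho hb h f g hε

end Vale.Agent.Results.P136.StableDetermination
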